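import Vale.Agent.P129.H189.Barr
import Vale.Agent.P129.H189.Small

/-! Definitions used in the statement of `Results/P129/FastNullSequences`. -/

open Filter Topology Set

namespace Vale.Agent.P129.H520

open Vale.Agent.P129.H189 (nonMeagre HasSeparableQuotient)

universe u

/-- The bounding number: the least cardinality of a family of functions from `ℕ` to `ℕ` which is
unbounded under eventual domination. -/
noncomputable def bounding : Cardinal.{0} :=
  sInf {κ : Cardinal.{0} | ∃ F : Set (ℕ → ℕ),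
    (∀ g : ℕ → ℕ, ∃ f ∈ F, ¬ ∀ᶠ n in atTop, f n ≤ g n) ∧ Cardinal.mk F = κ}

/-- Norm-one functionals tend to zero at every rate, uniformly on each set of the family: for all
`ε n > 0` there are norm-one functionals `f n` such that, for each set `K` of the family,
`|f n| ≤ ε n` on `K` for all but finitely many `n`. -/
def EveryRate (𝕜 : Type) [RCLike 𝕜] (X : Type u) [NormedAddCommGroup X] [NormedSpace 𝕜 X]
    (𝒦 : Set (Set X)) : Prop :=
  ∀ ε : ℕ → ℝ, (∀ n, 0 < ε n) → ∃ f : ℕ → StrongDual 𝕜 X, (∀ n, ‖f n‖ = 1) ∧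
    ∀ K ∈ 𝒦, ∀ᶠ n in atTop, ∀ x ∈ K, ‖f n x‖ ≤ ε n

/-- No sequence of norm-one functionals tends to zero at any rate on the sets of the family: for
all `ε n > 0` tending to zero and all norm-one functionals `f n` there is a set `K` of the family
such that `sup_K |f n| = O(ε n)` fails. -/
def NoRate (𝕜 : Type) [RCLike 𝕜] (X : Type u) [NormedAddCommGroup X] [NormedSpace 𝕜 X]
    (𝒦 : Set (Set X)) : Prop :=
  ∀ ε : ℕ → ℝ, (∀ n, 0 < ε n) → Tendsto ε atTop (𝓝 0) →
    ∀ f : ℕ → StrongDual 𝕜 X, (∀ n, ‖f n‖ = 1) →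
      ∃ K ∈ 𝒦, ∀ C : ℝ, ∃ n, ∃ x ∈ K, C * ε n < ‖f n x‖

/-- Points: every rate is possible at fewer than non(M) points of an infinite-dimensional normed
space, and in each separable infinite-dimensional Banach space there are exactly non(M) points at
which no rate is possible. -/
def PointRates : Prop :=
  (∀ (𝕜 : Type) [RCLike 𝕜] (X : Type u) [NormedAddCommGroup X] [NormedSpace 𝕜 X],
    ¬ FiniteDimensional 𝕜 X → ∀ H : Set X, Cardinal.mk H < Cardinal.lift.{u} nonMeagre →
      EveryRate 𝕜 X ((fun x => {x}) '' H)) ∧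
  ∀ (𝕜 : Type) [RCLike 𝕜] (X : Type u) [NormedAddCommGroup X] [NormedSpace 𝕜 X]
    [CompleteSpace X] [TopologicalSpace.SeparableSpace X], ¬ FiniteDimensional 𝕜 X →
      ∃ H : Set X, Cardinal.mk H = Cardinal.lift.{u} nonMeagre ∧
        NoRate 𝕜 X ((fun x => {x}) '' H)

/-- Compact sets: every rate is possible on fewer than `𝔟` compact sets of an infinite-dimensional
normed space, and in each separable infinite-dimensional normed space there are exactly `𝔟` compact
sets on which no rate is possible. -/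
def CompactRates : Prop :=
  (∀ (𝕜 : Type) [RCLike 𝕜] (X : Type u) [NormedAddCommGroup X] [NormedSpace 𝕜 X],
    ¬ FiniteDimensional 𝕜 X → ∀ 𝒦 : Set (Set X), (∀ K ∈ 𝒦, IsCompact K) →
      Cardinal.mk 𝒦 < Cardinal.lift.{u} bounding → EveryRate 𝕜 X 𝒦) ∧
  ∀ (𝕜 : Type) [RCLike 𝕜] (X : Type u) [NormedAddCommGroup X] [NormedSpace 𝕜 X]
    [TopologicalSpace.SeparableSpace X], ¬ FiniteDimensional 𝕜 X →
      ∃ 𝒦 : Set (Set X), (∀ K ∈ 𝒦, IsCompact K) ∧ Cardinal.mk 𝒦 = Cardinal.lift.{u} bounding ∧
        NoRate 𝕜 X 𝒦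

/-- A Banach space has a separable infinite-dimensional quotient if and only if some rate is
possible at the points of a set spanning a dense subspace; then every rate is possible at the
points of such a set. -/
def RateCriterion : Prop :=
  ∀ (𝕜 : Type) [RCLike 𝕜] (X : Type u) [NormedAddCommGroup X] [NormedSpace 𝕜 X]
    [CompleteSpace X],
      (HasSeparableQuotient 𝕜 X ↔ ∃ H : Set X, Dense (Submodule.span 𝕜 H : Set X) ∧
        ¬ NoRate 𝕜 X ((fun x => {x}) '' H)) ∧
      (HasSeparableQuotient 𝕜 X ↔ ∃ H : Set X, Dense (Submodule.span 𝕜 H : Set X) ∧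
        EveryRate 𝕜 X ((fun x => {x}) '' H))

end Vale.Agent.P129.H520
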