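import Vale.Agent.P129.H520.Defs

/-! Rates in the Josefson-Nissenzweig theorem. -/

open Filter Topology Set Cardinal

namespace Vale.Agent.P129.H520

open Vale.Agent.P129.H189
open Vale.Agent.P129 (bddSub)

universe u

variable {𝕜 : Type} [RCLike 𝕜] {X : Type u} [NormedAddCommGroup X] [NormedSpace 𝕜 X]

/-- An unbounded sequence of functionals yields norm-one functionals which tend to zero at a given
rate where the sequence is bounded. -/
theorem fast_of_unbounded (g : ℕ → StrongDual 𝕜 X) (hg : ∀ R : ℝ, ∃ k, R < ‖g k‖)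
    (ε : ℕ → ℝ) (hε : ∀ n, 0 < ε n) :
    ∃ f : ℕ → StrongDual 𝕜 X, (∀ n, ‖f n‖ = 1) ∧
      ∀ x ∈ bddSub g, ∀ᶠ n in atTop, ‖f n x‖ ≤ ε n := by
  have hk : ∀ n : ℕ, ∃ k, ((n : ℝ) + 1) / ε n < ‖g k‖ := fun n => hg _
  choose k hk using hk
  have hpos : ∀ n : ℕ, 0 < ‖g (k n)‖ := fun n =>
    (div_pos (by positivity) (hε n)).trans (hk n)
  refine ⟨fun n => ((‖g (k n)‖⁻¹ : ℝ) : 𝕜) • g (k n), fun n => ?_, ?_⟩
  · rw [norm_smul, RCLike.norm_ofReal, abs_of_pos (inv_pos.2 (hpos n)),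
      inv_mul_cancel₀ (hpos n).ne']
  · rintro x ⟨c, hc⟩
    obtain ⟨N, hN⟩ := exists_nat_ge c
    filter_upwards [eventually_ge_atTop N] with n hn
    have h1 : ‖(((‖g (k n)‖⁻¹ : ℝ) : 𝕜) • g (k n)) x‖ = ‖g (k n)‖⁻¹ * ‖g (k n) x‖ := by
      rw [_root_.smul_apply, norm_smul, RCLike.norm_ofReal, abs_of_pos (inv_pos.2 (hpos n))]
    rw [h1, inv_mul_le_iff₀ (hpos n)]
    have h2 : (n : ℝ) + 1 < ‖g (k n)‖ * ε n := (div_lt_iff₀ (hε n)).1 (hk n)
    have h3 : c ≤ (n : ℝ) + 1 := by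
      have : (N : ℝ) ≤ n := by exact_mod_cast hn
      linarith
    linarith [hc (k n)]

/-- Every rate is possible at fewer than non(M) points. -/
theorem everyRate_points (hinf : ¬ FiniteDimensional 𝕜 X) (H : Set X)
    (hH : #H < Cardinal.lift.{u} nonMeagre) : EveryRate 𝕜 X ((fun x => {x}) '' H) := by
  have hι : #(H ⊕ ℕ) < Cardinal.lift.{u} nonMeagre := by
    rw [mk_sum]
    refine add_lt_of_lt aleph0_lt_lift_nonMeagre.le ?_ ?_
    · simpa using hH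
    · simpa using aleph0_lt_lift_nonMeagre.{u}
  obtain ⟨g, hg1, hg2⟩ := Vale.Agent.P129.exists_unbounded_bounded_at hinf
    (ι := H ⊕ ℕ) (isMeagre_range_of_lt hι) (Sum.elim (↑) fun _ => 0)
  intro ε hε
  obtain ⟨f, hf1, hf2⟩ := fast_of_unbounded g hg1 ε hε
  refine ⟨f, hf1, ?_⟩
  rintro _ ⟨x, hx, rfl⟩
  filter_upwards [hf2 x (hg2 (Sum.inl ⟨x, hx⟩))] with n hn
  rintro y hy
  rw [mem_singleton_iff.1 hy]
  exact hn

/-- The Josefson-Nissenzweig theorem for real and complex normed spaces. -/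
theorem exists_null_sequence (hinf : ¬ FiniteDimensional 𝕜 X) :
    ∃ f : ℕ → StrongDual 𝕜 X, (∀ n, ‖f n‖ = 1) ∧ ∀ x, Tendsto (fun n => f n x) atTop (𝓝 0) := by
  let _ : NormedSpace ℝ X := NormedSpace.restrictScalars ℝ 𝕜 X
  have _ : IsScalarTower ℝ 𝕜 X := RestrictScalars.isScalarTower ℝ 𝕜 X
  have hinf' : ¬ FiniteDimensional ℝ X := by
    intro hf
    exact hinf (Module.Finite.of_restrictScalars_finite ℝ 𝕜 X)
  have hdual := Vale.Agent.P129.not_finiteDimensional_dual hinf'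
  let W : ∀ n, Vale.Agent.P129.Ell (X →L[ℝ] ℝ) n := fun n =>
    { T := (Vale.Agent.P129.exists_ellipsoid hdual n).choose
      le := (Vale.Agent.P129.exists_ellipsoid hdual n).choose_spec.1
      big := (Vale.Agent.P129.exists_ellipsoid hdual n).choose_spec.2 }
  obtain ⟨f, c, hc, hf1, hf2⟩ := Vale.Agent.P129.josefson_nissenzweig W
  have hpos : ∀ n, 0 < ‖f n‖ := fun n => hc.trans_le (hf1 n)
  let h : ℕ → StrongDual 𝕜 X := fun n => StrongDual.extendRCLike (𝕜 := 𝕜) (f n)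
  have hh : ∀ n, ‖h n‖ = ‖f n‖ := fun n => StrongDual.norm_extendRCLike _
  refine ⟨fun n => ((‖f n‖⁻¹ : ℝ) : 𝕜) • h n, fun n => ?_, fun x => ?_⟩
  · rw [norm_smul, RCLike.norm_ofReal, abs_of_pos (inv_pos.2 (hpos n)), hh,
      inv_mul_cancel₀ (hpos n).ne']
  · have h1 : Tendsto (fun n => ‖f n x‖ + ‖f n ((RCLike.I : 𝕜) • x)‖) atTop (𝓝 0) := by
      simpa using (hf2 x).norm.add (hf2 ((RCLike.I : 𝕜) • x)).norm
    have h2 : Tendsto (fun n => c⁻¹ * (‖f n x‖ + ‖f n ((RCLike.I : 𝕜) • x)‖)) atTop (𝓝 0) := by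
      simpa using h1.const_mul c⁻¹
    refine squeeze_zero_norm (fun n => ?_) h2
    have e1 : ‖h n x‖ ≤ ‖f n x‖ + ‖f n ((RCLike.I : 𝕜) • x)‖ := by
      show ‖StrongDual.extendRCLike (𝕜 := 𝕜) (f n) x‖ ≤ _
      rw [StrongDual.extendRCLike_apply]
      refine (norm_sub_le _ _).trans (add_le_add ?_ ?_)
      · rw [RCLike.norm_ofReal]; exact le_rfl
      · rw [norm_mul, RCLike.norm_ofReal]
        refine (mul_le_of_le_one_left (abs_nonneg _) ?_)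
        rcases eq_or_ne (RCLike.I : 𝕜) 0 with h | h
        · rw [h, norm_zero]; exact zero_le_one
        · rw [RCLike.norm_I_of_ne_zero h]
    have e2 : ‖(((‖f n‖⁻¹ : ℝ) : 𝕜) • h n) x‖ = ‖f n‖⁻¹ * ‖h n x‖ := by
      rw [_root_.smul_apply, norm_smul, RCLike.norm_ofReal, abs_of_pos (inv_pos.2 (hpos n))]
    rw [e2]
    exact mul_le_mul (inv_anti₀ hc (hf1 n)) e1 (norm_nonneg _) (inv_nonneg.2 hc.le)

/-- A pointwise null sequence of norm-one functionals is uniformly null on compact sets. -/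
lemma uniform_on_compact (f : ℕ → StrongDual 𝕜 X) (hf : ∀ n, ‖f n‖ = 1)
    (h0 : ∀ x, Tendsto (fun n => f n x) atTop (𝓝 0)) {K : Set X} (hK : IsCompact K)
    {δ : ℝ} (hδ : 0 < δ) : ∀ᶠ n in atTop, ∀ x ∈ K, ‖f n x‖ ≤ δ := by
  obtain ⟨t, -, htf, ht⟩ := hK.finite_cover_balls (half_pos hδ)
  have h1 : ∀ᶠ n in atTop, ∀ y ∈ t, ‖f n y‖ < δ / 2 := by
    rw [htf.eventually_all]
    intro y _
    have := (h0 y).norm
    rw [norm_zero] at this
    exact this.eventually_lt_const (half_pos hδ)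
  filter_upwards [h1] with n hn x hx
  obtain ⟨y, hy, hxy⟩ := mem_iUnion₂.1 (ht hx)
  have h2 : f n x = f n (x - y) + f n y := by rw [← map_add, sub_add_cancel]
  rw [h2]
  refine (norm_add_le _ _).trans ?_
  have h3 : ‖f n (x - y)‖ ≤ δ / 2 := by
    refine ((f n).le_opNorm _).trans ?_
    rw [hf, one_mul, ← dist_eq_norm]
    exact (Metric.mem_ball.1 hxy).le
  linarith [hn y hy]

lemma bounding_mem : ∃ F : Set (ℕ → ℕ),
    (∀ g : ℕ → ℕ, ∃ f ∈ F, ¬ ∀ᶠ n in atTop, f n ≤ g n) ∧ #F = bounding := by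
  have : bounding ∈ {κ : Cardinal.{0} | ∃ F : Set (ℕ → ℕ),
      (∀ g : ℕ → ℕ, ∃ f ∈ F, ¬ ∀ᶠ n in atTop, f n ≤ g n) ∧ #F = κ} := by
    refine csInf_mem ⟨_, Set.univ, fun g => ⟨fun n => g n + 1, mem_univ _, fun h => ?_⟩, rfl⟩
    obtain ⟨n, hn⟩ := h.exists
    have hn' : g n + 1 ≤ g n := hn
    omega
  exact this

lemma exists_bound {ι : Type u} (φ : ι → ℕ → ℕ) (h : #ι < Cardinal.lift.{u} bounding) :
    ∃ g : ℕ → ℕ, ∀ i, ∀ᶠ n in atTop, φ i n ≤ g n := by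
  by_contra hcon
  push Not at hcon
  have h1 : bounding ≤ #(Set.range φ) := by
    refine csInf_le' ⟨Set.range φ, fun g => ?_, rfl⟩
    obtain ⟨i, hi⟩ := hcon g
    exact ⟨φ i, ⟨i, rfl⟩, fun h => hi (h.mono fun n hn => not_lt.2 hn)⟩
  have h2 : Cardinal.lift.{u} #(Set.range φ) ≤ Cardinal.lift.{0} #ι := mk_range_le_lift
  rw [Cardinal.lift_id'] at h2
  exact absurd h (not_lt.2 ((Cardinal.lift_le.2 h1).trans h2))

/-- Every rate is possible on fewer than `𝔟` compact sets. -/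
theorem everyRate_compact (hinf : ¬ FiniteDimensional 𝕜 X) (𝒦 : Set (Set X))
    (hK : ∀ K ∈ 𝒦, IsCompact K) (hc : #𝒦 < Cardinal.lift.{u} bounding) :
    EveryRate 𝕜 X 𝒦 := by
  intro ε hε
  obtain ⟨f, hf, h0⟩ := exists_null_sequence (𝕜 := 𝕜) (X := X) hinf
  have h1 : ∀ (K : 𝒦) (n : ℕ), ∃ N : ℕ, ∀ m ≥ N, ∀ x ∈ (K : Set X), ‖f m x‖ ≤ ε n := fun K n =>
    eventually_atTop.1 (uniform_on_compact f hf h0 (hK K K.2) (hε n))
  choose φ hφ using h1
  obtain ⟨g, hg⟩ := exists_bound φ hc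
  refine ⟨fun n => f (g n), fun n => hf _, fun K hKm => ?_⟩
  filter_upwards [hg ⟨K, hKm⟩] with n hn
  exact hφ ⟨K, hKm⟩ n _ hn

end Vale.Agent.P129.H520
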