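import Vale.Agent.P129.H520.Sharp
import Mathlib.Topology.ContinuousMap.Polynomial
import Mathlib.Topology.ContinuousMap.SecondCountableSpace
import Mathlib.Topology.ContinuousMap.Compact

/-! The statements on weakly compact generation, barrelled spaces and free sets. -/

open MeasureTheory Set

namespace Vale.Agent.P129.H520

open Vale.Agent.P129.H189

universe u

theorem barrelledAttained : BarrelledAttained := by
  intro 𝕜 _ X _ _ _ _ hinf
  obtain ⟨T, hT, hTc⟩ := nonMeagre_mem
  let _ : NormedSpace ℝ X := NormedSpace.restrictScalars ℝ 𝕜 X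
  obtain ⟨e, he⟩ := Vale.Agent.P129.exists_digit_map X
  obtain ⟨h1, h2⟩ := Vale.Agent.P129.barrelled_span_of_digit_map (𝕜 := 𝕜) e he T hT
  refine ⟨_, h1, h2, le_antisymm ?_ ?_⟩
  · refine (rank_span_le _).trans ?_
    rw [← hTc]
    exact Cardinal.mk_image_le
  · have := barrelledLowerBound.{0} 𝕜 _ (not_finiteDimensional_of_dense hinf _ h1) h2
    rwa [Cardinal.lift_id] at this

theorem generatedCase : GeneratedCase.{u} := by
  intro 𝕜 _ X _ _ _ 𝒦 hcompact hspan hcard hinf
  have h0 : Cardinal.aleph0 < Cardinal.lift.{u} nonMeagre :=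
    Cardinal.aleph0_lt_lift.2 aleph0_lt_nonMeagre
  have h1 : Cardinal.mk (𝒦 ⊕ ℕ) < Cardinal.lift.{u} nonMeagre := by
    rw [Cardinal.mk_sum]
    refine Cardinal.add_lt_of_lt h0.le ?_ ?_
    · simpa using hcard
    · simpa using h0
  refine Vale.Agent.P129.hasSepQuot_of_weaklyCompact hinf (ι := 𝒦 ⊕ ℕ)
    (isMeagre_range_of_lt h1)
    (Sum.elim (fun K => (K : Set X)) (fun _ => ∅)) ?_ ?_
  · rintro (K | n)
    · exact hcompact K K.2
    · simp
  · have e1 : (⋃ i, Sum.elim (fun K : 𝒦 => (K : Set X)) (fun _ : ℕ => ∅) i) = ⋃₀ 𝒦 := by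
      rw [Set.iUnion_sum]
      simp [Set.sUnion_eq_iUnion]
    rw [e1]
    exact hspan

theorem infiniteFreeSets_of_extends (h : LebesgueExtends) : InfiniteFreeSets := by
  obtain ⟨ν, hν⟩ := h
  intro F hF
  let μ : @Measure ℝ ⊤ := @Measure.restrict ℝ ⊤ ν (Icc 0 1)
  have hμ : ∀ s : Set ℝ, μ s = ν (s ∩ Icc 0 1) := fun s =>
    @Measure.restrict_apply ℝ ⊤ ν (Icc 0 1) s MeasurableSpace.measurableSet_top
  have h1 : μ univ = 1 := by
    rw [hμ, univ_inter, hν _ measurableSet_Icc, Real.volume_Icc]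
    simp
  obtain ⟨g, hg1, hg2⟩ := Vale.Agent.P129.exists_infinite_free μ (by rw [h1]; simp)
    (by rw [h1]; simp) (fun s hs => by
      rw [hμ]
      refine nonpos_iff_eq_zero.1 ?_
      calc ν (s ∩ Icc 0 1) ≤ ν (toMeasurable volume s) :=
            measure_mono (inter_subset_left.trans (subset_toMeasurable volume s))
        _ = volume (toMeasurable volume s) := hν _ (measurableSet_toMeasurable _ _)
        _ = 0 := by rw [measure_toMeasurable, hs]) F hF
  refine ⟨range g, infinite_range_of_injective hg1, ?_⟩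
  rintro s hs _ ⟨j, rfl⟩ hj
  obtain ⟨S, hS⟩ : ∃ S : Finset ℕ, S.image g = s := by
    classical
    refine ⟨s.preimage g hg1.injOn, ?_⟩
    rw [Finset.image_preimage]
    exact Finset.filter_true_of_mem fun x hx => hs hx
  rw [← hS]
  refine hg2 S j fun hj' => hj ?_
  rw [← hS]
  exact Finset.mem_image_of_mem g hj'

theorem fullAnswer_of_free (h : InfiniteFreeSets) : FullAnswer.{u} := by
  classical
  intro 𝕜 _ X _ _ _ hinf
  refine Vale.Agent.P129.exists_separable_quotient_of_free (fun F hF => ?_) hinf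
  obtain ⟨A, hA, hfree⟩ := h F hF
  have g : ℕ ↪ A := hA.natEmbedding
  refine ⟨fun n => (g n : ℝ), Subtype.val_injective.comp g.injective, fun S j hj => ?_⟩
  refine hfree _ ?_ _ (g j).2 ?_
  · intro x hx
    obtain ⟨i, -, rfl⟩ := Finset.mem_image.1 (Finset.mem_coe.1 hx)
    exact (g i).2
  · intro hx
    obtain ⟨i, hi, hij⟩ := Finset.mem_image.1 hx
    exact hj (g.injective (Subtype.ext hij) ▸ hi)


/-- The continuous functions on the unit interval are an infinite-dimensional space. -/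
lemma not_finiteDimensional_C : ¬ FiniteDimensional ℝ C(Set.Icc (0 : ℝ) 1, ℝ) := by
  intro hfin
  refine Polynomial.not_finite (R := ℝ) (Module.Finite.of_injective
    (Polynomial.toContinuousMapOnAlgHom (Set.Icc (0 : ℝ) 1)).toLinearMap ?_)
  rw [← LinearMap.ker_eq_bot, LinearMap.ker_eq_bot']
  intro q hq
  refine Polynomial.eq_zero_of_infinite_isRoot q ?_
  refine (Set.Icc_infinite (show (0 : ℝ) < 1 by norm_num)).mono fun x hx => ?_
  have h1 := congrArg (fun f : C(Set.Icc (0 : ℝ) 1, ℝ) => f ⟨x, hx⟩) hq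
  simpa using h1

/-- `𝔟 ≤ non(M)`, by comparing the two kinds of rates. -/
theorem bounding_le : bounding ≤ nonMeagre := by
  by_contra hlt
  rw [not_le] at hlt
  obtain ⟨H, hH, hN⟩ := pointRates.{0}.2 ℝ C(Set.Icc (0 : ℝ) 1, ℝ) not_finiteDimensional_C
  rw [Cardinal.lift_id] at hH
  refine not_noRate_of_everyRate (everyRate_compact not_finiteDimensional_C _ ?_ ?_)
    (isCompact_singletons H) hN
  · rintro _ ⟨x, -, rfl⟩
    exact isCompact_singleton
  · rw [Cardinal.lift_id]
    exact (Cardinal.mk_image_le.trans hH.le).trans_lt hlt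

end Vale.Agent.P129.H520
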