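import Vale.Agent.P129.H520.Fast

/-! Sets on which no rate is possible, and the criterion for separable quotients. -/

open Filter Topology Set Cardinal

namespace Vale.Agent.P129.H520

open Vale.Agent.P129.H189
open Vale.Agent.P129 (bddSub)

universe u

variable {𝕜 : Type} [RCLike 𝕜] {X : Type u} [NormedAddCommGroup X] [NormedSpace 𝕜 X]

/-- If every rate is possible then some rate is possible. -/
lemma not_noRate_of_everyRate {𝒦 : Set (Set X)} (h : EveryRate 𝕜 X 𝒦)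
    (hb : ∀ K ∈ 𝒦, ∃ r : ℝ, ∀ x ∈ K, ‖x‖ ≤ r) : ¬ NoRate 𝕜 X 𝒦 := by
  intro hN
  obtain ⟨f, hf1, hf2⟩ := h (fun n => (1 / 2 : ℝ) ^ n) (fun n => by positivity)
  obtain ⟨K, hK, hC⟩ := hN (fun n => (1 / 2 : ℝ) ^ n) (fun n => by positivity)
    (tendsto_pow_atTop_nhds_zero_of_lt_one (by norm_num) (by norm_num)) f hf1
  obtain ⟨N, hN'⟩ := eventually_atTop.1 (hf2 K hK)
  obtain ⟨r, hr⟩ := hb K hK
  obtain ⟨n, x, hx, hlt⟩ := hC (max 1 (r * 2 ^ N))
  by_cases hn : N ≤ n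
  · have h1 := hN' n hn x hx
    have h2 : (1 / 2 : ℝ) ^ n ≤ max 1 (r * 2 ^ N) * (1 / 2 : ℝ) ^ n :=
      le_mul_of_one_le_left (by positivity) (le_max_left _ _)
    linarith
  · push Not at hn
    have h1 : ‖f n x‖ ≤ r := by
      refine ((f n).le_opNorm x).trans ?_
      rw [hf1, one_mul]
      exact hr x hx
    have hr0 : 0 ≤ r := (norm_nonneg _).trans h1
    have h2 : r ≤ r * 2 ^ N * (1 / 2 : ℝ) ^ n := by
      have e1 : (2 : ℝ) ^ n * (1 / 2 : ℝ) ^ n = 1 := by rw [← mul_pow]; norm_num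
      have e2 : (2 : ℝ) ^ n ≤ 2 ^ N := pow_le_pow_right₀ (by norm_num) hn.le
      have e3 : (1 : ℝ) ≤ 2 ^ N * (1 / 2 : ℝ) ^ n := by
        have e4 : (0 : ℝ) ≤ (1 / 2 : ℝ) ^ n := by positivity
        exact e1.symm.le.trans (mul_le_mul_of_nonneg_right e2 e4)
      calc r = r * 1 := (mul_one r).symm
        _ ≤ r * (2 ^ N * (1 / 2 : ℝ) ^ n) := mul_le_mul_of_nonneg_left e3 hr0
        _ = r * 2 ^ N * (1 / 2 : ℝ) ^ n := by ring
    have h5 : (0 : ℝ) ≤ (1 / 2 : ℝ) ^ n := by positivity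
    have h3 : r * 2 ^ N * (1 / 2 : ℝ) ^ n ≤ max 1 (r * 2 ^ N) * (1 / 2 : ℝ) ^ n :=
      mul_le_mul_of_nonneg_right (le_max_right _ _) h5
    linarith

lemma isCompact_singletons (H : Set X) : ∀ K ∈ (fun x : X => ({x} : Set X)) '' H,
    ∃ r : ℝ, ∀ x ∈ K, ‖x‖ ≤ r := by
  rintro _ ⟨x, -, rfl⟩
  exact ⟨‖x‖, fun y hy => by rw [mem_singleton_iff.1 hy]⟩

/-- No rate is possible at the points of a set with a dense barrelled span. -/
theorem noRate_of_barrelled (T : Set X) (hd : Dense (Submodule.span 𝕜 T : Set X))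
    (hb : BarrelledSpace 𝕜 (Submodule.span 𝕜 T)) : NoRate 𝕜 X ((fun x => {x}) '' T) := by
  intro ε hε h0 f hf
  by_contra hcon
  push Not at hcon
  let g : ℕ → StrongDual 𝕜 (Submodule.span 𝕜 T) := fun n =>
    (((ε n)⁻¹ : ℝ) : 𝕜) • (f n).comp (Submodule.span 𝕜 T).subtypeL
  have hg : ∀ n (x : Submodule.span 𝕜 T), ‖g n x‖ = (ε n)⁻¹ * ‖f n x‖ := by
    intro n x
    show ‖((((ε n)⁻¹ : ℝ) : 𝕜) • (f n).comp (Submodule.span 𝕜 T).subtypeL) x‖ = _
    rw [_root_.smul_apply, norm_smul, RCLike.norm_ofReal, abs_of_pos (inv_pos.2 (hε n))]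
    rfl
  refine not_barrelled_of_unbounded g (fun R => ?_) (fun x => ?_) hb
  · by_contra hR
    push Not at hR
    have h1 : ∀ n, 1 ≤ R * ε n := by
      intro n
      have h2 : ∀ x : X, ‖f n x‖ ≤ (R * ε n) * ‖x‖ := by
        have hcl : IsClosed {x : X | ‖f n x‖ ≤ (R * ε n) * ‖x‖} :=
          isClosed_le (by fun_prop) (by fun_prop)
        have hsub : (Submodule.span 𝕜 T : Set X) ⊆ {x : X | ‖f n x‖ ≤ (R * ε n) * ‖x‖} := by
          intro x hx
          have h3 : ‖g n ⟨x, hx⟩‖ ≤ R * ‖x‖ :=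
            ((g n).le_opNorm _).trans (mul_le_mul_of_nonneg_right (hR n) (norm_nonneg _))
          rw [hg, inv_mul_le_iff₀ (hε n)] at h3
          show ‖f n x‖ ≤ (R * ε n) * ‖x‖
          calc ‖f n x‖ ≤ ε n * (R * ‖x‖) := h3
            _ = (R * ε n) * ‖x‖ := by ring
        intro x
        have h4 : x ∈ closure (Submodule.span 𝕜 T : Set X) := hd x
        exact closure_minimal hsub hcl h4
      have hR0 : 0 ≤ R := (norm_nonneg _).trans (hR n)
      have h5 := ContinuousLinearMap.opNorm_le_bound (f n) (mul_nonneg hR0 (hε n).le) h2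
      rwa [hf] at h5
    have h6 : Tendsto (fun n => R * ε n) atTop (𝓝 0) := by simpa using h0.const_mul R
    obtain ⟨n, hn⟩ := (h6.eventually_lt_const one_pos).exists
    exact absurd (h1 n) (not_le.2 hn)
  · have hle : Submodule.span 𝕜 (Subtype.val ⁻¹' T : Set (Submodule.span 𝕜 T)) ≤ bddSub g := by
      rw [Submodule.span_le]
      rintro ⟨y, hy⟩ (hyT : y ∈ T)
      obtain ⟨C, hC⟩ := hcon {y} ⟨y, hyT, rfl⟩
      refine ⟨C, fun n => ?_⟩
      rw [hg, inv_mul_le_iff₀ (hε n)]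
      have := hC n y rfl
      rw [mul_comm]
      exact this
    have htop : Submodule.span 𝕜 (Subtype.val ⁻¹' T : Set (Submodule.span 𝕜 T)) = ⊤ := by
      exact Submodule.span_span_coe_preimage
    exact hle (htop ▸ Submodule.mem_top)

theorem pointRates : PointRates.{u} := by
  refine ⟨fun 𝕜 _ X _ _ hinf H hH => everyRate_points hinf H hH, ?_⟩
  intro 𝕜 _ X _ _ _ _ hinf
  obtain ⟨T, hT1, hT2, hT3⟩ := exists_barrelled_set (𝕜 := 𝕜) X
  have hN := noRate_of_barrelled T hT2 hT3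
  refine ⟨T, le_antisymm hT1 ?_, hN⟩
  by_contra hlt
  rw [not_le] at hlt
  exact not_noRate_of_everyRate (everyRate_points hinf T hlt) (isCompact_singletons T) hN

/-- Passing to a subsequence of functionals. -/
lemma noRate_of_fast {𝒦 : Set (Set X)}
    (h : ∀ f : ℕ → StrongDual 𝕜 X, (∀ n, ‖f n‖ = 1) →
      ∃ K ∈ 𝒦, ∀ C : ℝ, ∃ n, ∃ x ∈ K, C * (1 / 4 : ℝ) ^ n < ‖f n x‖) : NoRate 𝕜 X 𝒦 := by
  intro ε hε h0 f hf
  have h1 : ∀ k : ℕ, ∃ n, ε n < (1 / 4 : ℝ) ^ k := fun k =>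
    (h0.eventually_lt_const (by positivity)).exists
  choose m hm using h1
  obtain ⟨K, hK, hC⟩ := h (fun k => f (m k)) (fun k => hf _)
  refine ⟨K, hK, fun C => ?_⟩
  obtain ⟨k, x, hx, hlt⟩ := hC (max C 0)
  refine ⟨m k, x, hx, lt_of_le_of_lt ?_ hlt⟩
  calc C * ε (m k) ≤ max C 0 * ε (m k) :=
        mul_le_mul_of_nonneg_right (le_max_left _ _) (hε _).le
    _ ≤ max C 0 * (1 / 4 : ℝ) ^ k := mul_le_mul_of_nonneg_left (hm k).le (le_max_right _ _)

theorem exists_compact_noRate [TopologicalSpace.SeparableSpace X] :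
    ∃ 𝒦 : Set (Set X), (∀ K ∈ 𝒦, IsCompact K) ∧ #𝒦 ≤ Cardinal.lift.{u} bounding ∧
      NoRate 𝕜 X 𝒦 := by
  classical
  -- a dense sequence in the unit ball
  have hne : Nonempty (Metric.closedBall (0 : X) 1) :=
    ⟨⟨0, by simp only [Metric.mem_closedBall, dist_self, zero_le_one]⟩⟩
  let b := TopologicalSpace.denseSeq (Metric.closedBall (0 : X) 1)
  have hb := TopologicalSpace.denseRange_denseSeq (Metric.closedBall (0 : X) 1)
  obtain ⟨F, hF1, hF2⟩ := bounding_mem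
  -- increasing functions
  let ψ : (ℕ → ℕ) → ℕ → ℕ := fun f n => (Finset.range (n + 1)).sup f + n
  have hψ : ∀ f n, f n ≤ ψ f n := fun f n =>
    (Finset.le_sup (f := f) (Finset.mem_range.2 (Nat.lt_succ_self n))).trans (Nat.le_add_right _ _)
  have hex : ∀ f j, ∃ k, j ≤ ψ f k := fun f j => ⟨j, Nat.le_add_left _ _⟩
  let κ : (ℕ → ℕ) → ℕ → ℕ := fun f j => Nat.find (hex f j)
  have hκ : ∀ f j k, j ≤ ψ f k → κ f j ≤ k := fun f j k h => Nat.find_min' _ h
  have hκ' : ∀ f k, ∀ᶠ j in atTop, k ≤ κ f j := by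
    intro f k
    refine eventually_atTop.2 ⟨(Finset.range (k + 1)).sup (ψ f) + 1, fun j hj => ?_⟩
    by_contra hlt
    push Not at hlt
    have h1 : j ≤ ψ f (κ f j) := Nat.find_spec (hex f j)
    have h2 : ψ f (κ f j) ≤ (Finset.range (k + 1)).sup (ψ f) :=
      Finset.le_sup (f := ψ f) (Finset.mem_range.2 (by omega))
    omega
  let p : (ℕ → ℕ) → ℕ → X := fun f j => (((1 / 2 : ℝ) ^ κ f j : ℝ) : 𝕜) • (b j : X)
  have hp : ∀ f, Tendsto (p f) atTop (𝓝 0) := by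
    intro f
    have h1 : Tendsto (κ f) atTop atTop := tendsto_atTop.2 fun k => hκ' f k
    have h2 : Tendsto (fun j => (1 / 2 : ℝ) ^ κ f j) atTop (𝓝 0) :=
      (tendsto_pow_atTop_nhds_zero_of_lt_one (by norm_num) (by norm_num)).comp h1
    refine squeeze_zero_norm (fun j => ?_) h2
    have h3 : ‖(b j : X)‖ ≤ 1 := mem_closedBall_zero_iff.1 (b j).2
    show ‖(((1 / 2 : ℝ) ^ κ f j : ℝ) : 𝕜) • (b j : X)‖ ≤ _
    rw [norm_smul, RCLike.norm_ofReal, abs_of_pos (by positivity)]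
    exact mul_le_of_le_one_right (by positivity) h3
  refine ⟨(fun f => insert 0 (Set.range (p f))) '' F, ?_, ?_, noRate_of_fast fun φ hφ => ?_⟩
  · rintro _ ⟨f, -, rfl⟩
    exact (hp f).isCompact_insert_range
  · have h1 := mk_image_le_lift.{0, u} (f := fun f => insert (0 : X) (Set.range (p f))) (s := F)
    rw [hF2] at h1
    simpa using h1
  · -- the dominating function
    have hj : ∀ n, ∃ j, (1 / 2 : ℝ) < ‖φ n (b j)‖ := by
      intro n
      obtain ⟨y, hy, hy'⟩ := (φ n).exists_lt_apply_of_lt_opNorm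
        (show (1 / 2 : ℝ) < ‖φ n‖ by rw [hφ]; norm_num)
      have hopen : IsOpen {z : Metric.closedBall (0 : X) 1 | (1 / 2 : ℝ) < ‖φ n z‖} :=
        isOpen_lt continuous_const (by fun_prop)
      obtain ⟨j, hj⟩ := hb.exists_mem_open hopen
        ⟨⟨y, mem_closedBall_zero_iff.2 hy.le⟩, hy'⟩
      exact ⟨j, hj⟩
    choose j hj using hj
    obtain ⟨f, hfF, hf⟩ := hF1 j
    refine ⟨_, ⟨f, hfF, rfl⟩, fun C => ?_⟩
    -- infinitely often the index is small
    have hfreq : ∃ᶠ n in atTop, j n < f n := fun h => hf (h.mono fun n hn => not_lt.1 hn)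
    have hlim : Tendsto (fun n : ℕ => C * (1 / 2 : ℝ) ^ n) atTop (𝓝 0) := by
      simpa using (tendsto_pow_atTop_nhds_zero_of_lt_one (r := (1 / 2 : ℝ)) (by norm_num)
        (by norm_num)).const_mul C
    obtain ⟨n, hn1, hn2⟩ := (hfreq.and_eventually
      (hlim.eventually_lt_const (show (0 : ℝ) < 1 / 2 by norm_num))).exists
    refine ⟨n, p f (j n), mem_insert_of_mem _ ⟨j n, rfl⟩, ?_⟩
    have h1 : κ f (j n) ≤ n := hκ f _ _ (hn1.le.trans (hψ f n))
    have h2 : ‖φ n (p f (j n))‖ = (1 / 2 : ℝ) ^ κ f (j n) * ‖φ n (b (j n))‖ := by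
      show ‖φ n ((((1 / 2 : ℝ) ^ κ f (j n) : ℝ) : 𝕜) • (b (j n) : X))‖ = _
      rw [map_smul, norm_smul, RCLike.norm_ofReal, abs_of_pos (by positivity)]
    have h3 : (1 / 2 : ℝ) ^ n ≤ (1 / 2 : ℝ) ^ κ f (j n) :=
      pow_le_pow_of_le_one (by norm_num) (by norm_num) h1
    have h4 : C * (1 / 4 : ℝ) ^ n = (C * (1 / 2 : ℝ) ^ n) * (1 / 2 : ℝ) ^ n := by
      rw [mul_assoc, ← mul_pow]; norm_num
    rw [h2, h4]
    have h5 : (0 : ℝ) < (1 / 2 : ℝ) ^ n := by positivity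
    calc (C * (1 / 2 : ℝ) ^ n) * (1 / 2 : ℝ) ^ n < 1 / 2 * (1 / 2 : ℝ) ^ n :=
          mul_lt_mul_of_pos_right hn2 h5
      _ ≤ ‖φ n (b (j n))‖ * (1 / 2 : ℝ) ^ κ f (j n) :=
          mul_le_mul (hj n).le h3 h5.le (norm_nonneg _)
      _ = _ := mul_comm _ _

theorem compactRates : CompactRates.{u} := by
  refine ⟨fun 𝕜 _ X _ _ hinf 𝒦 hK hc => everyRate_compact hinf 𝒦 hK hc, ?_⟩
  intro 𝕜 _ X _ _ _ hinf
  obtain ⟨𝒦, h1, h2, h3⟩ := exists_compact_noRate (𝕜 := 𝕜) (X := X)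
  refine ⟨𝒦, h1, le_antisymm h2 ?_, h3⟩
  by_contra hlt
  rw [not_le] at hlt
  refine not_noRate_of_everyRate (everyRate_compact hinf 𝒦 h1 hlt) (fun K hK => ?_) h3
  obtain ⟨r, hr⟩ := (h1 K hK).isBounded.exists_norm_le
  exact ⟨r, hr⟩

/-- A rate at a set with a dense span yields a separable quotient. -/
theorem hasSep_of_rate [CompleteSpace X] (H : Set X) (hd : Dense (Submodule.span 𝕜 H : Set X))
    (h : ¬ NoRate 𝕜 X ((fun x => {x}) '' H)) : HasSeparableQuotient 𝕜 X := by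
  unfold NoRate at h
  push Not at h
  obtain ⟨ε, hε, h0, f, hf, hC⟩ := h
  refine Vale.Agent.P129.exists_separable_quotient_of_unbounded
    (fun n => (((ε n)⁻¹ : ℝ) : 𝕜) • f n) (fun R => ?_) ?_
  · have h1 : ∀ᶠ n in atTop, ε n < (|R| + 1)⁻¹ := h0.eventually_lt_const (by positivity)
    obtain ⟨n, hn⟩ := h1.exists
    refine ⟨n, ?_⟩
    rw [norm_smul, RCLike.norm_ofReal, abs_of_pos (inv_pos.2 (hε n)), hf, mul_one]
    have h2 : |R| + 1 < (ε n)⁻¹ := (lt_inv_comm₀ (hε n) (by positivity)).1 hn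
    linarith [le_abs_self R]
  · refine hd.mono (SetLike.coe_subset_coe.2 (Submodule.span_le.2 fun x hx => ?_))
    obtain ⟨C, hC⟩ := hC {x} ⟨x, hx, rfl⟩
    refine ⟨C, fun n => ?_⟩
    rw [_root_.smul_apply, norm_smul, RCLike.norm_ofReal, abs_of_pos (inv_pos.2 (hε n)),
      inv_mul_le_iff₀ (hε n), mul_comm]
    exact hC n x rfl

/-- A separable quotient yields every rate at a set with a dense span. -/
theorem everyRate_of_hasSep (h : HasSeparableQuotient 𝕜 X) :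
    ∃ H : Set X, Dense (Submodule.span 𝕜 H : Set X) ∧ EveryRate 𝕜 X ((fun x => {x}) '' H) := by
  obtain ⟨M, hM, hsep, hinf⟩ := h
  have hι : #(ULift.{u} ℕ) < Cardinal.lift.{u} nonMeagre := by
    simpa using aleph0_lt_lift_nonMeagre.{u}
  obtain ⟨s, hs⟩ := TopologicalSpace.exists_dense_seq (X ⧸ M)
  obtain ⟨g, hg1, hg2⟩ := Vale.Agent.P129.exists_unbounded_bounded_at (𝕜 := 𝕜) hinf
    (ι := ULift.{u} ℕ) (isMeagre_range_of_lt hι) (fun i => s i.down)
  let G : ℕ → StrongDual 𝕜 X := fun n => (g n).comp M.mkQL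
  have hG1 : ∀ R : ℝ, ∃ k, R < ‖G k‖ := by
    intro R
    obtain ⟨k, hk⟩ := hg1 (max R 0)
    refine ⟨k, ?_⟩
    by_contra hle
    push Not at hle
    refine absurd hk (not_lt.2 ?_)
    refine ContinuousLinearMap.opNorm_le_bound _ (le_max_right _ _) fun y => ?_
    refine le_of_forall_pos_le_add fun δ hδ => ?_
    obtain ⟨x, hx, hxn⟩ := Submodule.Quotient.norm_mk_lt y
      (show (0 : ℝ) < δ / (max R 0 + 1) by
        have := le_max_right R 0
        positivity)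
    have h1 : ‖g k y‖ ≤ max R 0 * ‖x‖ := by
      have h2 : G k x = g k y := by rw [← hx]; rfl
      rw [← h2]
      exact ((G k).le_opNorm x).trans
        (mul_le_mul_of_nonneg_right (hle.trans (le_max_left _ _)) (norm_nonneg _))
    have h3 : max R 0 * ‖x‖ ≤ max R 0 * (‖y‖ + δ / (max R 0 + 1)) :=
      mul_le_mul_of_nonneg_left hxn.le (le_max_right _ _)
    have h4 : max R 0 * (δ / (max R 0 + 1)) ≤ δ := by
      have h5 : 0 ≤ max R 0 := le_max_right _ _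
      rw [mul_div_assoc', div_le_iff₀ (by positivity)]
      nlinarith
    linarith
  refine ⟨bddSub G, ?_, ?_⟩
  · have hsub : M.mkQ ⁻¹' (Set.range s) ⊆ (Submodule.span 𝕜 (bddSub G : Set X) : Set X) := by
      rintro x ⟨i, hi⟩
      refine Submodule.subset_span ?_
      obtain ⟨c, hc⟩ := hg2 ⟨i⟩
      refine ⟨c, fun k => ?_⟩
      have h1 : G k x = g k (s i) := by rw [hi]; rfl
      rw [h1]
      exact hc k
    exact Dense.mono hsub (Dense.preimage hs (Submodule.isOpenMap_mkQ M))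
  · intro ε hε
    obtain ⟨f, hf1, hf2⟩ := fast_of_unbounded G hG1 ε hε
    refine ⟨f, hf1, ?_⟩
    rintro _ ⟨x, hx, rfl⟩
    filter_upwards [hf2 x hx] with n hn
    rintro y hy
    rw [mem_singleton_iff.1 hy]
    exact hn

theorem rateCriterion : RateCriterion.{u} := by
  intro 𝕜 _ X _ _ _
  have key : ∀ H : Set X, EveryRate 𝕜 X ((fun x => {x}) '' H) →
      ¬ NoRate 𝕜 X ((fun x => {x}) '' H) := fun H h =>
    not_noRate_of_everyRate h (isCompact_singletons H)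
  refine ⟨⟨fun h => ?_, ?_⟩, ⟨everyRate_of_hasSep, ?_⟩⟩
  · obtain ⟨H, hd, hH⟩ := everyRate_of_hasSep h
    exact ⟨H, hd, key H hH⟩
  · rintro ⟨H, hd, hH⟩
    exact hasSep_of_rate H hd hH
  · rintro ⟨H, hd, hH⟩
    exact hasSep_of_rate H hd (key H hH)

end Vale.Agent.P129.H520
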